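import Crest.Agent.X212.Sym93.Trp
import Crest.Agent.X212.Pte3.Defs

/-!
# Row 212, PT-STP (helper12): the stabiliser of a moving limit fixes all limits of the chart
-/

set_option autoImplicit false
set_option linter.unusedSectionVars false
noncomputable section
open Set Function Filter Topology MeasureTheory
open scoped ContDiff Manifold InnerProductSpace

namespace Crest.Agent.X212.Stp12
open An An.Pre Sob92 Wz78 Pj41 Nd18 Cyf70 Clr59 Sym93
open Rdc90 (Bs Har bh A0)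
open Rf65 (Psc ParY dz PY ctr)

section gen
variable {E : Type} [NormedAddCommGroup E] [NormedSpace ℝ E] [FiniteDimensional ℝ E]
  [MeasurableSpace E] [BorelSpace E]
  {HM : Type} [TopologicalSpace HM] {I : ModelWithCorners ℝ E HM} [I.Boundaryless]
  {M : Type} [TopologicalSpace M] [ChartedSpace HM M] [IsManifold I ∞ M]
  [MeasurableSpace M] {ι : Type} [Fintype ι] {lam : Type} [Fintype lam]
  {B : Base M ι lam} {G : Geo I M ι lam} {m : Md M ι lam} {W : m.Cn}

/-- parallel automorphisms: scalar part and parallel `g`-part -/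
theorem dec (a : Ad B G W) {s : M → En (Fin m.N)} (k : PS G W W univ s) :
    ∃ (t : M → ℝ) (b : M → m.A), Sm I b ∧ (∀ x, b x ∈ m.gS x) ∧
      (∀ i x, nab I G.F.e (m.adW W) i b x = 0) ∧ ∀ x, s x = t x • m.p x + opL (b x) := by
  have k0 := k.lin (k.trn a a) (-1)
  have k' := k0.lin k0 (-1 / 2)
  choose t b hb hs using fun x => (Std94.itx_iff a.hB (Std94.pmx a.ok x) (s x)).1 (k.it x trivial)
  have hT : b = fun x => hsL (s x + (-1 : ℝ) • trn (s x) +
      (-1 / 2 : ℝ) • (s x + (-1 : ℝ) • trn (s x))) := funext fun x => by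
    refine (hsL_opL (b x)).symm.trans (congrArg _ ?_)
    rw [hs x, Std94.trn_comm (Std94.pmx a.ok x) _ (hb x)]
    module
  refine ⟨t, b, hT ▸ fun y => SA.clm hsL (k'.sm y trivial), hb, fun i y => ?_, hs⟩
  rw [hT, hsL_nab i (k'.sm y trivial), nabE, ← add_sub_assoc]
  exact (congrArg _ (k'.par y trivial i)).trans (map_zero _)

theorem alg {A : Type} [Ring A] [Algebra ℝ A] {d w x s : A} {a : ℝ}
    (k : d + (w + a • x) * s - s * (w + a • x) = 0) (c : x * s = s * x) (b : ℝ) :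
    d + (w + b • x) * s - s * (w + b • x) = 0 := by
  simp only [add_mul, mul_add, smul_mul_assoc, mul_smul_comm, c] at k ⊢
  rw [← k]; abel

end gen

section ysec
variable {E3 : Type} [NormedAddCommGroup E3] [NormedSpace ℝ E3] [FiniteDimensional ℝ E3]
  [MeasurableSpace E3] [BorelSpace E3]
  {H3 : Type} [TopologicalSpace H3] {I3 : ModelWithCorners ℝ E3 H3} [I3.Boundaryless]
  {Y : Type} [TopologicalSpace Y] [ChartedSpace H3 Y] [IsManifold I3 ∞ Y] [T2Space Y]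
  [MeasurableSpace Y] [BorelSpace Y] [SecondCountableTopology Y] [CompactSpace Y]
  {κ : Type} [Fintype κ] {lam : Type} [Fintype lam] {D : YD I3 Y κ lam} {β γ : YC Y κ lam}
  {ξ : Y → β.m.A} {η : κ → Y → β.m.A} {ζ : Circle}

/-- a one-dimensional stabiliser, transported along an equivalence -/
theorem line (hD : D.OK) (A' : D.Adm γ) (A : D.Adm β) (e : D.Eqv γ β) (h1 : dz D γ = 1)
    (p : ParY D β ξ) (h0 : ξ ≠ 0) {ξ' : Y → β.m.A} (p' : ParY D β ξ') : ∃ c : ℝ, ξ' = c • ξ := by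
  obtain ⟨v, ζ, e⟩ := e
  have e' := Eqv71.ceq_symm_id hD.B hD.G isOpen_univ (Eqv71.ad0 A'.adm) (Eqv71.ad0 A.adm) e
  obtain ⟨a1, a2⟩ := par_tr hD A A' e' p
  obtain ⟨c, hc⟩ := (finrank_eq_one_iff_of_nonzero' (K := ℝ) (⟨_, a1⟩ : parS D γ)
    fun z => h0 (a2 (congrArg Subtype.val z))).1 (dz_def.symm.trans h1) ⟨_, (par_tr hD A A' e' p').1⟩
  have hc' := congrArg Subtype.val hc
  refine ⟨c, (sub_eq_zero.1 ((par_tr hD A A' e' (ξ := c • ξ - ξ')
    ((parS D β).sub_mem ((parS D β).smul_mem c p) p')).2 (funext fun y => ?_))).symm⟩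
  have := congrFun hc' y
  exact (map_sub _ _ _).trans (sub_eq_zero.2 ((map_smul _ c (ξ y)).trans this))

/-- self-equivalences commute with the generator of the stabiliser -/
theorem comm (hD : D.OK) (A : D.Adm β) (h : ∀ ξ', ParY D β ξ' → ∃ c : ℝ, ξ' = c • ξ)
    (g : ∀ y, ξ y ∈ β.m.gS y) {s : Y × ℝ → CL β.m.V β.m.V}
    (e : Mod61.EqOn D.B D.Z univ (cy β) (cy β) s ζ) (x : Y × ℝ) :
    opL (ξ x.1) * s x = s x * opL (ξ x.1) := by
  have a := ad_cy hD A
  have k : PS D.G (cy β).W (cy β).W univ s := ps_iso a a isOpen_univ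
    (Iso0.of_mEq isOpen_univ e.m (OK.on A.adm.ok _) (OK.on A.adm.ok _))
    ((par0_iff ((IsConn.on A.adm.conn _).proj' hD.B)).2 e.W)
  obtain ⟨t, b, b1, b2, b3, hs⟩ := dec a k
  obtain ⟨c, hc⟩ := h _ (par_slice (β := β) b1 b2 b3 x.2)
  have h3 : b x = c • ξ x.1 := congrFun hc x.1
  have g1 : β.m.p x.1 * opL (ξ x.1) = opL (ξ x.1) := g_p (g x.1)
  have g2 : opL (ξ x.1) * β.m.p x.1 = opL (ξ x.1) := g_p' (m := (cy β).m) (x := x) A.adm.ok (g x.1)
  have : s x = t x • β.m.p x.1 + opL (c • ξ x.1) := h3 ▸ hs x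
  rw [this, map_smul, mul_add, add_mul, mul_smul_comm, smul_mul_assoc, mul_smul_comm,
    smul_mul_assoc, g1, g2]

/-- **the stabiliser fixes the moving limits** -/
theorem stab {b : ℕ} (py : PY D b) (H : Bs D β) (hh : Har D β η) (h0 : η ≠ 0) (A' : D.Adm γ)
    {l l' : ℝ} (e0 : D.Eqv γ (bh β (l • η) 0)) (h1 : dz D γ = 1) {s : Y × ℝ → CL β.m.V β.m.V}
    (e : Mod61.EqOn D.B D.Z univ (cy (bh β (l • η) 0)) (cy (bh β (l • η) 0)) s ζ) :
    Mod61.EqOn D.B D.Z univ (cy (bh β (l' • η) 0)) (cy (bh β (l' • η) 0)) s ζ := by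
  obtain ⟨ν, ρ, S⟩ := py.psc
  obtain rfl | rfl := Nat.le_one_iff_eq_zero_or_eq_one.1 py.b1
  · exact (h0 (funext₂ fun k y => ((har_dec S H hh).2 k y).trans (Fin.sum_univ_zero _))).elim
  obtain ⟨ν, rfl⟩ : ∃ ν', ν = fun _ => ν' := ⟨ν 0, funext fun i => congrArg ν (i.eq_zero)⟩
  obtain ⟨ξ, p, rfl⟩ := (har_iff S H).1 hh
  have A := (bs_tw S H p l).adm
  have A1 := (bs_tw S H p l').adm
  have cm := comm (β := bh β (l • tY ν ξ) 0) (ξ := ξ) H.ok A (fun _ p' => line H.ok A' A e0 h1 (par_tw p l)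
    (fun z => h0 ((congrArg (tY ν) z).trans (map_zero _))) p') p.mem e
  refine ⟨e.m, (par0_iff ((IsConn.on A1.adm.conn _).proj' H.ok.B)).1 fun x hx a => ?_, e.Φ, e.z⟩
  have k := (par0_iff ((IsConn.on A.adm.conn _).proj' H.ok.B)).2 e.W x hx a
  rw [bh_W] at k ⊢
  exact alg k (cm x) _

end ysec

open M Rf65 Pte3

variable {Wi : Type} {X : Mf 4} {A κ lam : Type} [Fintype A] [Fintype κ] [Fintype lam]
  [DecidableEq lam] {M : Mark X A κ} {W : World M} {N : ML M lam} {Λ : Lns W N}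
  {A' h : Type} [Fintype A'] [DecidableEq A'] [Fintype h] {r n : ℕ}

/-- **PT-STP** -/
theorem stP (J : Job Wi Λ A' h r n) (c : M.Cl) : StP J c := fun _ hJ =>
  ⟨1, one_pos, fun _ _ _ _ _ _ _ _ _ _ E g _ y t₀ _ S m i hi s ζ e t => by
    by_cases z : E.μ i = none
    · have : E.lm i t = E.lm i t₀ := by simp only [EC.lm, z, Option.elim_none]
      unfold EC.lim at e ⊢
      rw [this]; exact e
    · obtain ⟨b, py⟩ := hJ.py i.1 i.1.2
      obtain ⟨h1, h2, h3⟩ := g.ok.har i hi z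
      have k := S.crit i.1 i.1.2 i.2 hi
      exact stab py h1 h2 h3 ⟨k.sol.toAdm, k.tmp⟩ (m i hi) (S.mv i (g.hμ ▸ z)).2 e⟩

end Crest.Agent.X212.Stp12
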